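import Crest.Agent.X212.Qab60.Props

/-! X212 / QA-UQ (helper54): reductions with the same curvature on a simply connected set. -/

set_option autoImplicit false
set_option linter.unusedSectionVars false
noncomputable section
open scoped Manifold ContDiff Topology InnerProductSpace Quaternion
open Set Function Filter

namespace Crest.Agent.X212.Uq54
open An Sob92 Wz78 Pj41 Dfl49
open Std94 (Itx Pix PMx pmx_on pmx itx_Pix itx_norm hs Xi)
open Eqv71 (cj)
open Loc8 (Rd)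
open Abel74 (fm fF)

/-- imaginary units are conjugate -/
theorem exists_conj {a b : ℍ} (ha : a * a = -1) (hb : b * b = -1) :
    ∃ c : ℍ, star c * c = 1 ∧ b * c = c * a := by
  obtain ⟨e, he⟩ : ∃ e, e - b * e * a ≠ 0 := by
    by_contra! h
    have h1 : ∀ e, b * e = -(e * a) := fun e => by
      linear_combination (norm := noncomm_ring) b * h e + hb * e * a
    have h2 : ∀ e, a * e = e * a := fun e => by
      have := h1 1
      rw [mul_one, one_mul] at this
      simpa [this] using h1 e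
    obtain ⟨i, i1, i2, i3, i4⟩ : ∃ i : ℍ, i.re = 0 ∧ i.imI = 1 ∧ i.imJ = 0 ∧ i.imK = 0 :=
      ⟨⟨0, 1, 0, 0⟩, rfl, rfl, rfl, rfl⟩
    obtain ⟨j, j1, j2, j3, j4⟩ : ∃ j : ℍ, j.re = 0 ∧ j.imI = 0 ∧ j.imJ = 1 ∧ j.imK = 0 :=
      ⟨⟨0, 0, 1, 0⟩, rfl, rfl, rfl, rfl⟩
    have h3 := congrArg (·.imK) (h2 i)
    have h4 := congrArg (·.imJ) (h2 i)
    have h5 := congrArg (·.imK) (h2 j)
    have h6 := congrArg (·.re) ha
    simp [i1, i2, i3, i4, j1, j2, j3, j4] at h3 h4 h5 h6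
    rw [show a.imI = 0 by linarith, show a.imJ = 0 by linarith, show a.imK = 0 by linarith] at h6
    nlinarith
  refine ⟨‖e - b * e * a‖⁻¹ • (e - b * e * a), ?_, ?_⟩
  · rw [Quaternion.star_mul_self, Quaternion.normSq_eq_norm_mul_self, norm_smul, norm_inv,
      norm_norm, inv_mul_cancel₀ (norm_ne_zero_iff.2 he)]
    simp
  · rw [mul_smul_comm, smul_mul_assoc]
    congr 1
    linear_combination (norm := noncomm_ring) b * e * ha - hb * e * a

variable {E : Type} [NormedAddCommGroup E] [NormedSpace ℝ E] [FiniteDimensional ℝ E]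
  [MeasurableSpace E] [BorelSpace E]
  {HM : Type} [TopologicalSpace HM] {I : ModelWithCorners ℝ E HM} [I.Boundaryless]
  {M : Type} [TopologicalSpace M] [ChartedSpace HM M] [IsManifold I ∞ M] [T2Space M]
  [MeasurableSpace M] [BorelSpace M] [SecondCountableTopology M]
  {ι : Type} [Fintype ι] {lam : Type} [Fintype lam]
  {B : Base M ι lam} {G : Geo I M ι lam} {m m' : Md M ι lam} {S : Set M} {x : M}
  {W : m.Cn} {W' : m'.Cn} {ξ : M → m.A} {ξ' : M → m'.A}

/-- reductions are isomorphic at a point -/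
theorem exists_pt (hB : B.OK I) (H : PMx B m x) (H' : PMx B m' x) {η : m.A} {η' : m'.A}
    (h : η ∈ m.gS x) (h' : η' ∈ m'.gS x) (s : opL η * opL η = -m.p x)
    (s' : opL η' * opL η' = -m'.p x) : ∃ T : CL m.V m'.V, Itx m m' x T ∧ trn T ∘L T = m.p x ∧
      opL η' ∘L T = T ∘L opL η := by
  obtain ⟨U, t, u, f⟩ := Std94.exists_fx hB H
  obtain ⟨u', f'⟩ := f.toBx.exists_fx H'
  obtain ⟨a, -, rfl⟩ := (f.mem_g_iff η).1 h
  obtain ⟨b, -, rfl⟩ := (f'.mem_g_iff η').1 h'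
  rw [opL_hsL, Std94.Xi_mul, ← f.Xi_one, ← map_neg] at s
  rw [opL_hsL, Std94.Xi_mul, ← f'.Xi_one, ← map_neg] at s'
  obtain ⟨c, h1, h2⟩ := exists_conj (Std94.Xi_inj _ _ s) (Std94.Xi_inj _ _ s')
  exact ⟨Xi u' u c, (f.itx_iff f' _).2 ⟨c, rfl⟩, by rw [Std94.trn_Xi, Std94.Xi_comp, h1, f.Xi_one],
    by rw [opL_hsL, opL_hsL, Std94.Xi_comp, Std94.Xi_comp, h2]⟩

variable (ξ ξ') in
/-- the projector onto the intertwiners which intertwine the reductions -/
def q (x : M) : CL (CL m.V m'.V) (CL m.V m'.V) := (1 / 2 : ℝ) • ((1 - (ContinuousLinearMap.compL ℝ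
  _ _ _ (opL (ξ' x)) ∘L (ContinuousLinearMap.compL ℝ _ _ _).flip (opL (ξ x)))) ∘L Pix m m' x)

theorem q_apply (T : CL m.V m'.V) : q ξ ξ' x T =
    (1 / 2 : ℝ) • (Pix m m' x T - opL (ξ' x) ∘L Pix m m' x T ∘L opL (ξ x)) := rfl

section
variable (h : Two B G W W' S) (R : Rd G.F m W S ξ) (R' : Rd G.F m' W' S ξ')
include h R R'

theorem q_mem (hx : x ∈ S) (T : CL m.V m'.V) : Itx m m' x (q ξ ξ' x T) ∧
    opL (ξ' x) ∘L q ξ ξ' x T = q ξ ξ' x T ∘L opL (ξ x) := by
  obtain ⟨U, t, u, f⟩ := Std94.exists_fx h.hB (pmx_on h.H hx)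
  obtain ⟨U', t', u', f'⟩ := Std94.exists_fx h.hB (pmx_on h.H' hx)
  have i := itx_Pix h.hB (pmx_on h.H hx) (pmx_on h.H' hx) T
  have i2 := itx_comp (itx_comp (f.itx_of_mem (R.mem x hx)) i) (f'.itx_of_mem (R'.mem x hx))
  rw [q_apply]
  refine ⟨(h.pix hx).1 (by rw [map_smul, map_sub, (h.pix hx).2 i, (h.pix hx).2 i2]), ?_⟩
  have s := fun v => DFunLike.congr_fun (R.sq x hx) v
  have s' := fun v => DFunLike.congr_fun (R'.sq x hx) v
  simp only [mul_apply_eq_comp, neg_apply] at s s'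
  ext1 v
  simp only [ContinuousLinearMap.comp_apply, smul_apply, sub_apply, map_smul, map_sub, s, s',
    map_neg, i.pl, i.pr]
  module

theorem q_iff (hx : x ∈ S) {T : CL m.V m'.V} :
    q ξ ξ' x T = T ↔ Itx m m' x T ∧ opL (ξ' x) ∘L T = T ∘L opL (ξ x) := by
  refine ⟨fun e => e ▸ q_mem h R R' hx T, fun ⟨i, e⟩ => ?_⟩
  have s := fun v => DFunLike.congr_fun (R.sq x hx) v
  have e' := fun v => DFunLike.congr_fun e v
  simp only [mul_apply_eq_comp, neg_apply, ContinuousLinearMap.comp_apply] at s e'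
  rw [q_apply, (h.pix hx).2 i]
  ext1 v
  simp only [ContinuousLinearMap.comp_apply, smul_apply, sub_apply, e', s, map_neg, i.pr]
  module

theorem sa_q (hx : x ∈ S) : SA I (q ξ ξ') x :=
  SA.smul contMDiffAt_const ((contMDiffAt_const.sub (((R'.sm_opL hx).clm _).clm_comp
    ((R.sm_opL hx).clm _))).clm_comp (h.sa_Pix hx))

theorem flt (hG : G.OK B) (H : m.OK I B) (H' : m'.OK I B) (C : m.IsConn B G W)
    (C' : m'.IsConn B G W') (e : EqOn (fm G.F m' W' ξ') (fm G.F m W ξ) S) :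
    Flt G.F S (hA W W') (q ξ ξ') := by
  refine ⟨h.op, fun a _ hx => h.sA hx a, fun a _ hx => h.pA hx a, fun _ => sa_q h R R',
    fun a x hx => ContinuousLinearMap.ext fun T => ?_,
    fun a b x hx => ContinuousLinearMap.ext fun T => ?_⟩
  · have ev := h.op.eventually_mem hx
    have s : SA I (fun y => q ξ ξ' y T) x := (sa_q h R R' hx).app contMDiffAt_const
    have i := ev.mono fun y hy => q_mem h R R' hy T
    have := nab_app' (e := G.F.e) (A := hA W W') a (sa_q h R R' hx) s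
    rw [nab_congr a (v := fun y => q ξ ξ' y T) ((i.and ev).mono
      fun y hy => (q_iff h R R' hy.2).2 hy.1)] at this
    have k := (q_iff h R R' hx).2 ⟨h.itx_nab hx s (i.mono fun _ k => k.1) a,
      ContinuousLinearMap.ext fun v => (itw_nab (e := G.F.e) (A := W) (A' := W') s (R.sm_opL hx)
        (R'.sm_opL hx) (i.mono fun _ k v => (DFunLike.congr_fun k.2 v).symm) a
        (fun v => by rw [R.nE hx, R'.nE hx]; simp) v).symm⟩
    generalize nab I G.F.e (hA W W') a (fun y => q ξ ξ' y T) x = Z at this k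
    rw [k, right_eq_add] at this
    rw [mul_apply_eq_comp, this, zero_apply]
  · have e1 : fF G.F m' W' ξ' a b x = fF G.F m W ξ a b x := by
      rw [← Abel74.k2_fm hG C, ← Abel74.k2_fm hG C', Num57.k2, Num57.k2, e hx]
    rw [mul_apply_eq_comp, h.curv_itx hx (q_mem h R R' hx T).1, R.Fg_eq h.hB hG H C hx,
      R'.Fg_eq h.hB hG H' C' hx, e1, map_smul, map_smul, ContinuousLinearMap.smul_comp,
      ContinuousLinearMap.comp_smul, (q_mem h R R' hx T).2, sub_self, zero_apply]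

end

variable (I M ι lam) in
/-- **QA-UQ** -/
theorem uq : Qab60.UqStmt I M ι lam := by
  intro r r' B G Ω c ξ c' ξ' hB hG hs A A' e
  rcases Ω.eq_empty_or_nonempty with rfl | ⟨x₀, hx⟩
  · exact ⟨0, ⟨⟨fun _ => False.elim, fun _ => False.elim, fun _ => False.elim, fun _ => False.elim,
      fun _ => False.elim⟩, fun _ => False.elim⟩, fun _ => False.elim⟩
  have a := (Tmp64.admOn_univ.2 A.adm).mono (subset_univ Ω)
  have a' := (Tmp64.admOn_univ.2 A'.adm).mono (subset_univ Ω)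
  have h := two_of hB hG.P A.rd.op a a'
  have F := flt h A.rd A'.rd hG A.adm.ok A'.adm.ok A.adm.conn A'.adm.conn e
  obtain ⟨T, i, n, k⟩ := exists_pt hB (pmx_on h.H hx) (pmx_on h.H' hx) (A.rd.mem _ hx)
    (A'.rd.mem _ hx) (A.rd.sq _ hx) (A'.rd.sq _ hx)
  obtain ⟨U, hU, -, -, hl⟩ := F.exists_loc hx
  obtain ⟨s, s1, s2⟩ := hl x₀ (mem_of_mem_nhds hU) T ((q_iff h A.rd A'.rd hx).2 ⟨i, k⟩)
  obtain ⟨u, t1, t2⟩ := hs.2 x₀ hx _ _ F.ls s (by rintro _ rfl; exact mem_of_superset hU s2)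
  have t3 := fun x hx => (q_iff h A.rd A'.rd hx).1 (t1 x hx).self_of_nhds.mem
  have p : ∀ x ∈ Ω, PA G.F (hA c.W c'.W) (Pix c.m c'.m) u x := fun x hx =>
    ⟨(t1 x hx).self_of_nhds.sm, (h.pix hx).2 (t3 x hx).1, (t1 x hx).self_of_nhds.par⟩
  have j := h.iso0_of p ((hs.2 x₀ hx).prop (fun x hx => (h.norm_ev p hx).mono fun y hy => by rw [hy])
    (by rintro _ rfl; rw [t2 rfl, s1]; exact Std94.hs_of_iso (pmx_on h.H hx) n))
  refine ⟨u, ⟨j, h.par0_of p⟩, fun x hx => opL_inj ?_⟩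
  rw [Eqv71.opL_cj, ← ContinuousLinearMap.comp_assoc, ← (t3 x hx).2, ContinuousLinearMap.comp_assoc,
    ← ad_trn, (j.iso x hx).tgt]
  exact (Wz78.g_p' A'.adm.ok (A'.rd.mem x hx)).symm

end Crest.Agent.X212.Uq54
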